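import Vale.Agent.P167.H318.Q.Gate
import Vale.Agent.P167.H704.Rc

/-!
# P167, general `q`, block Q-NSYM: GREF, the intermediate statements

`S0` (type `TC`, height `4 l0`) -- `HIT` with the window `n` --> `S1` (height `4 K4 n`) -- `HIT` with the
window `n` --> `S2` (height `4 n`, tip above `y`), then the event `TL` of the tail.
-/

namespace Vale.Agent.P167.H166Q

open Vale.Agent.P167 Vale.Agent.P167.FK Vale.Agent.P167.FKA Vale.Agent.P167.H318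
open Vale.Agent.P167.H318.UQ (LB RB Oc Dc An Gt ArE ArW Ctr)
open Vale.Agent.P167.H685.Q (PQ TC hbF)
open Vale.Agent.P167.H704 (Hc)

/-- the event of `GREF` -/
def GE (K3 K x n l' : ℤ) : Set Cfg :=
  {ξ | ∃ e, Gt K3 K x n ξ e ∧ ArE K3 K x n ξ e ∧ ArW K3 K x n ξ e ∧ Ctr K3 K x n l' ξ e}

/-- inner radius of the first half annulus, in units of `n` -/
def a1 (K3 : ℤ) : ℤ := K3 + 8

/-- outer radius of the second half annulus, in units of `n`; the height of the state `S1` -/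
def K4 (Λ K3 : ℤ) : ℤ := Λ * (Λ * (K3 + 8))

/-- the event of `HIT`, with the abscissa `y` of the entrance -/
def HT (S : St) (l x ρ n y : ℤ) (ω : Cfg) : Prop :=
  H318.st S.e0 ω (hit S.D S.e0 (Lo x ρ (4 * n)) ω) = Sum.inr (y, 4 * n - 1) ∧
  ∀ j, S.m ≤ j → j < hit S.D S.e0 (Lo x ρ (4 * n)) ω → hdv (H318.st S.e0 ω j) ∈ HB x (20 * l)

/-- the state after the first entrance of height `4 n` -/
noncomputable def nxt (S : St) (x ρ n : ℤ) (ω : Cfg) : St := S.rv (S.RV (Lo x ρ (4 * n)) ω) ω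

/-- an open path from the left bank to the bottom in the east of the half annulus -/
def OArcW (S : St) (b r R : ℤ) (ξ : Cfg) : Prop :=
  ∃ s p : ℤ × ℤ, LB S s ∧ p.2 = 0 ∧ b + r < p.1 ∧ p.1 ≤ b + R + 1 ∧ Oc (S.F ∩ An b r R) ξ s p

/-- a dual path from the right bank to the bottom in the west of the half annulus -/
def DArcW (S : St) (b r R : ℤ) (ξ : Cfg) : Prop :=
  ∃ s p : ℤ × ℤ, RB S s ∧ p.2 = 0 ∧ p.1 < b - r ∧ b - R ≤ p.1 ∧ Dc (S.F ∩ An b r R) ξ s p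

/-- **the tail**: arcs of both colours from the banks to the side in two half annuli, crossings of two
tubes, no escape from the half box of radius `(K3 - 4) n` -/
def TL (S : St) (K3 K Λ x y n : ℤ) (ξ : Cfg) : Prop :=
  OArcW S y ((K3 + 8) * n) (Λ * ((K3 + 8) * n)) ξ ∧
  DArcW S y (Λ * ((K3 + 8) * n)) (Λ * (Λ * ((K3 + 8) * n))) ξ ∧
  ξ ∈ Hc true (x + (K3 + 3) * n) (x + 2 * (K * n)) n (2 * n) ∧
  ξ ∈ Hc false (x - 2 * (K * n)) (x - (K3 + 3) * n) n (2 * n) ∧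
  ¬ Visit S.D S.e0 S.m (HB y ((K3 - 4) * n))ᶜ ξ

/-- **(P1)** a state of type `TC` -/
def S0EX : Prop := ∀ x l ρ : ℤ, Odd x → 1 ≤ l → 20 * l ≤ ρ → ∃ S : St, TC S l x ρ

/-- **(P2)** comparison with the reference law -/
def RATIO (Q : ℝ) : Prop := ∀ K : ℤ, 1 ≤ K → ∃ (C : ℝ) (K' n0 : ℤ), 0 < C ∧ 1 ≤ K' ∧ 1 ≤ n0 ∧
  ∀ (S : St) (K0 l x ρ n : ℤ) (A : Set Cfg), n0 ≤ n → K' * n ≤ l → K' ≤ K0 → 20 * l ≤ ρ →
  TC S l x ρ → Loc (hbF x (2 * (K * n) + 2)) (A.indicator 1) →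
  PQ Q S A ≤ C * FK.Pr Q (hbF x (K0 * n)) eta0 A

/-- **(P2')** `GE` is local -/
def GELOC : Prop := ∀ K3 K x n l' : ℤ, 8 ≤ K3 → K3 + 8 ≤ K → 1 ≤ n → 1 ≤ l' → 4 * l' ≤ n →
  Loc (hbF x (2 * (K * n) + 2)) ((GE K3 K x n l').indicator 1)

/-- **(P3)** the next state is of type `TC` -/
def TCRV : Prop := ∀ (S : St) (l x ρ n y : ℤ) (ω : Cfg), 1 ≤ n → n ≤ l → 20 * l ≤ ρ → TC S l x ρ →
  Good ω → (∀ v, v ∉ S.F → ω v = S.z v) → HT S l x ρ n y ω → |y - x| ≤ n →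
  TC (nxt S x ρ n ω) n y (ρ - n)

/-- **(P4)** probability of the tail -/
def TAIL (Q : ℝ) : Prop := ∃ Λ K30 : ℤ, 2 ≤ Λ ∧ 16 ≤ K30 ∧ ∀ K3 K : ℤ, K30 ≤ K3 →
  20 * K4 Λ K3 + 20 ≤ K → ∃ (c : ℝ) (n0 : ℤ), 0 < c ∧ 1 ≤ n0 ∧ ∀ (S : St) (x y ρ n : ℤ), n0 ≤ n →
  |y - x| ≤ 2 * n → 3 * (K * n) ≤ ρ → TC S n y ρ → c ≤ PQ Q S {ξ | TL S K3 K Λ x y n ξ}

/-- **(P5)** the gate (deterministic) -/
def DET : Prop := ∀ K3 K Λ : ℤ, 16 ≤ K3 → 2 ≤ Λ → 20 * K4 Λ K3 + 20 ≤ K →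
  ∀ (S : St) (x y1 y ρ n l' : ℤ) (ω ξ : Cfg), 1 ≤ n → 1 ≤ l' → 4 * l' ≤ n → |y1 - x| ≤ n →
  |y - y1| ≤ n → 4 * (K * n) ≤ ρ → TC S (K4 Λ K3 * n) y1 ρ → (∀ v, v ∉ S.F → ω v = S.z v) →
  HT S (K4 Λ K3 * n) y1 ρ n y ω → TC (nxt S y1 ρ n ω) n y (ρ - n) →
  (∀ v, v ∉ (nxt S y1 ρ n ω).F → ξ v = (nxt S y1 ρ n ω).z v) → TL (nxt S y1 ρ n ω) K3 K Λ x y n ξ →
  Gt K3 K x n ξ (Sum.inr (y, 4 * n - 1)) ∧ ArE K3 K x n ξ (Sum.inr (y, 4 * n - 1)) ∧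
    ArW K3 K x n ξ (Sum.inr (y, 4 * n - 1)) ∧ Ctr K3 K x n l' ξ (Sum.inr (y, 4 * n - 1))

end Vale.Agent.P167.H166Q
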