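import Vale.Agent.P167.H166Q.GDefs
import Vale.Agent.P167.H192.Q.ArcQ
import Vale.Agent.P167.H704.Q.Minor

/-!
# P167, general `q`, block Q-NSYM: probability of the tail of the gate
-/

namespace Vale.Agent.P167.H166Q

open Finset Vale.Agent.P167 Vale.Agent.P167.FK Vale.Agent.P167.FKA Vale.Agent.P167.H318
open Vale.Agent.P145.FB (PStep PConn)
open Vale.Agent.P167.H259 (f_markov Ex_out)
open Vale.Agent.P167.H685.Q (PQ TC hbF mem_hbF ESCQ Gq)
open Vale.Agent.P167.H632 (IncC cs_false)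
open Vale.Agent.P167.H704 (Hc rq mem_rq inc_Hc dep_Hc)
open Vale.Agent.P167.H704.Q (fil CU mem_CU CU_sub CU_fresh CU_disj fil_inc fil_in bk prC_inter rs_fk
  ext2 dep_ind contact)
open Vale.Agent.P167.H192.ArcQ (AG1 PtU tx th farc_ge ArcE inc_ArcE farc_dom pw_pconn
  pconn_sub CU_an)
open Vale.Agent.P167.H192.ArcP (past')
open Vale.Agent.P167.H192.Q (SRSW)
open Vale.Agent.P167.H192.TA (dF mem_dF dq)

variable {S : St} {x y ρ n r R : ℤ} {u : ℤ × ℤ → ℤ}

/-! ### the conditions for the arcs -/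

theorem tc_hdv (h : TC S n y ρ) : hdv S.tip = (y, 4 * n - 1) := h.toTB.tip_hdv

theorem ag1_of (h : TC S n y ρ) (hn : 1 ≤ n) (hr : 4 * n ≤ r) (hrR : r ≤ R) (hR : R ≤ ρ) :
    AG1 S y r R := by
  refine ⟨h.toOk, fun a h1 h2 => h.gq.ne a (by omega) (by omega), fun v hv => ?_,
    fun a h1 h2 => h.flat'.not a (by omega) (by omega), fun v hv => ?_, ?_, fun a h1 h2 => ?_⟩
  · obtain ⟨a1, a2, a3, a4⟩ := hv
    exact h.flat'.mem v ⟨by omega, by omega, a3, by omega⟩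
  · obtain ⟨a1, a2, a3, a4⟩ := hv
    exact h.po v ⟨by omega, by omega, a3, by omega⟩
  · rw [tc_hdv h]
    exact ⟨by dsimp only; omega, by dsimp only; omega, by dsimp only; omega, by dsimp only; omega⟩
  · rw [tc_hdv h] at h2 ⊢
    dsimp only at h2 ⊢
    exact h.fresh _ ⟨by dsimp only; omega, by dsimp only; omega, h1, by dsimp only; omega⟩

theorem tx_tc (h : TC S n y ρ) : tx S = y := by unfold tx; rw [tc_hdv h]

theorem th_tc (h : TC S n y ρ) : th S = 4 * n := by unfold th; rw [tc_hdv h]; dsimp only; ring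

/-- the potential is constant along the columns of the low zone, off the column of the tip -/
theorem col_val (h : TC S n y ρ) (hn : 1 ≤ n) (hu : PtU S u) {a : ℤ} (h1 : y - ρ ≤ a)
    (h2 : a ≤ y + ρ) (h3 : a ≠ y) (j : ℕ) (hj : (j : ℤ) ≤ 4 * n) : u (a, (j : ℤ)) = u (a, 0) := by
  induction j with
  | zero => simp
  | succ j ih =>
    have ih' := ih (by push_cast at hj; omega)
    have hLo : ((a, (j : ℤ)) : ℤ × ℤ) ∈ Lo y ρ (4 * n) :=
      ⟨by dsimp only; omega, by dsimp only; omega, by dsimp only; omega,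
        by push_cast at hj; dsimp only; omega⟩
    have hF := h.fresh _ hLo
    have hu' : Pt0 S (tx S) (th S) u := hu
    have hfl := hu'.flat h.toOk (by rw [th_tc h]; omega)
      (by rw [tx_tc h, th_tc h]; exact tc_hdv h) (h.flat.mem _ hLo) (fun hH => (hs_notF hH).1 hF)
      (fun hc => h3 (by rw [tx_tc h] at hc; exact hc.1))
    have := hfl.2.1
    dsimp only at this
    push_cast
    rw [this, ih']

theorem east_val (h : TC S n y ρ) (hn : 1 ≤ n) (hρ : 4 * n ≤ ρ) (hu : PtU S u) {v : ℤ × ℤ}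
    (h1 : y + 4 * n < v.1) (h2 : v.1 ≤ y + ρ) (h3 : 0 ≤ v.2) (h4 : v.2 ≤ 4 * n) :
    u v = u (ls S.tip) := by
  have hA := ag1_of h hn le_rfl hρ le_rfl
  have e1 := col_val h hn hu (a := v.1) (by omega) h2 (by omega) v.2.toNat (by omega)
  rw [Int.toNat_of_nonneg h3] at e1
  rw [show v = (v.1, v.2) from rfl, e1]
  exact hA.east hρ hu h1 h2

theorem west_val (h : TC S n y ρ) (hn : 1 ≤ n) (hρ : 4 * n ≤ ρ) (hu : PtU S u) {v : ℤ × ℤ}
    (h1 : v.1 ≤ y - 4 * n) (h2 : y - ρ ≤ v.1) (h3 : 0 ≤ v.2) (h4 : v.2 ≤ 4 * n) :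
    u v = u (rs S.tip) := by
  have hA := ag1_of h hn le_rfl hρ le_rfl
  have e1 := col_val h hn hu (a := v.1) h2 (by omega) (by omega) v.2.toNat (by omega)
  rw [Int.toNat_of_nonneg h3] at e1
  rw [show v = (v.1, v.2) from rfl, e1]
  exact hA.west hρ hu h1 h2

theorem jump (h : TC S n y ρ) (hn : 1 ≤ n) (hρ : 4 * n ≤ ρ) (hu : PtU S u) :
    ∀ i ≤ S.m, u (ls (H318.st S.e0 S.z i)) = u (rs (H318.st S.e0 S.z i)) + 1 :=
  past' ((ag1_of h hn le_rfl hρ le_rfl).tp hρ) hu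

/-! ### the arcs -/

/-- **A filled open arc gives an open arc from the left bank to the bottom in the east.** -/
theorem arc_trueW {b : ℤ} (H : AG1 S b r R) (_hr : 1 ≤ r) (hrR : r ≤ R) (hu : PtU S u) {ξ : Cfg}
    (h : fil true (dF ((b, 0) : ℤ × ℤ) (r + 1) R) (CU true S (dF ((b, 0) : ℤ × ℤ) (r + 1) R) u) ξ ∈
      ArcE true (b, 0) (r + 1) R) : OArcW S b r R ξ := by
  obtain ⟨x, x', h1, h2, h3, h4, h5, h6⟩ := h
  dsimp only at h1 h2 h3 h4 h5 h6
  have htp := H.tp hrR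
  have hp := past' htp hu
  have h7 : u (ls S.tip) = u (rs S.tip) + 1 := hp S.m le_rfl
  have hpar := H192.TA.Pw.parity h6
  dsimp only at hpar
  obtain ⟨i, hi, hc⟩ := contact (e := true) (Rg := Set.univ) (a := (x', 0)) (c := (x, 0)) hu H.toOk
    htp.hh htp.htip hp H.tok (by dsimp only; omega)
    (pw_pconn Set.inter_subset_left (H192.TA.Pw.symm h6))
    (H.east hrR hu (by omega) h4) (by
      rw [H.west hrR hu (by omega) h1]
      show u (rs S.tip) ≠ u (ls S.tip)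
      omega)
  refine ⟨ls (H318.st S.e0 S.z i), (x', 0), ⟨i, hi, rfl⟩, rfl, by dsimp only; omega,
    by dsimp only; omega, ?_⟩
  refine (pconn_sub ?_ hc).symm
  rintro v ⟨hv1, hv2⟩
  exact ⟨hv1, Finset.mem_coe.2 (CU_an (Finset.mem_coe.1 hv2))⟩

/-- **A filled dual arc gives a dual arc from the right bank to the bottom in the west.** -/
theorem arc_falseW {b : ℤ} (H : AG1 S b r R) (_hr : 1 ≤ r) (hrR : r ≤ R) (hu : PtU S u) {ξ : Cfg}
    (h : fil false (dF ((b, 0) : ℤ × ℤ) (r + 1) R) (CU false S (dF ((b, 0) : ℤ × ℤ) (r + 1) R) u) ξ ∈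
      ArcE false (b, 0) (r + 1) R) : DArcW S b r R ξ := by
  obtain ⟨x, x', h1, h2, h3, h4, h5, h6⟩ := h
  dsimp only at h1 h2 h3 h4 h5 h6
  have htp := H.tp hrR
  have hp := past' htp hu
  have h7 : u (ls S.tip) = u (rs S.tip) + 1 := hp S.m le_rfl
  obtain ⟨i, hi, hc⟩ := contact (e := false) (Rg := Set.univ) (a := (x, 0)) (c := (x', 0)) hu H.toOk
    htp.hh htp.htip hp H.tok (by dsimp only; omega) (pw_pconn Set.inter_subset_left h6)
    (H.west hrR hu (by omega) h1) (by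
      rw [H.east hrR hu (by omega) h4]
      show u (ls S.tip) ≠ u (rs S.tip)
      omega)
  refine ⟨rs (H318.st S.e0 S.z i), (x, 0), ⟨i, hi, rfl⟩, rfl, by dsimp only; omega,
    by dsimp only; omega, ?_⟩
  refine (pconn_sub ?_ hc).symm
  rintro v ⟨hv1, hv2⟩
  refine ⟨?_, Finset.mem_coe.2 (CU_an (Finset.mem_coe.1 hv2))⟩
  rw [cs_false] at hv1
  exact hv1

/-! ### the two coloured events -/

/-- the half annulus of the filled arc -/
noncomputable def Tn (y r R : ℤ) : Finset (ℤ × ℤ) := dF ((y, 0) : ℤ × ℤ) (r + 1) R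

/-- the filled arc -/
def FA (e : Bool) (S : St) (u : ℤ × ℤ → ℤ) (y r R : ℤ) : Set Cfg :=
  {ξ | fil e (Tn y r R) (CU e S (Tn y r R) u) ξ ∈ ArcE e (y, 0) (r + 1) R}

theorem dep_FA (e : Bool) : H871.Dep (CU e S (Tn y r R) u) (FA e S u y r R) := by
  intro o o' ho h
  have h1 : fil e (Tn y r R) (CU e S (Tn y r R) u) o =
      fil e (Tn y r R) (CU e S (Tn y r R) u) o' := by
    funext v
    by_cases hv : v ∈ CU e S (Tn y r R) u
    · rw [fil_in hv, fil_in hv, ho v hv]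
    · simp only [fil, hv, if_false]
  unfold FA at h ⊢
  rw [Set.mem_ofPred_eq] at h ⊢
  rw [← h1]
  exact h

theorem inc_FA (e : Bool) : IncC e (FA e S u y r R) := fil_inc (inc_ArcE e _ _ _)

/-- the domain of the colour `e` -/
noncomputable def Dm (e : Bool) (S : St) (u : ℤ × ℤ → ℤ) (y r R a b n : ℤ) : Finset (ℤ × ℤ) :=
  CU e S (Tn y r R) u ∪ rq (a - n) (b + n) n (2 * n)

/-- the event of the colour `e`: the filled arc and the crossing of the tube -/
def EV (e : Bool) (S : St) (u : ℤ × ℤ → ℤ) (y r R a b n : ℤ) : Set Cfg :=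
  FA e S u y r R ∩ Hc e a b n (2 * n)

theorem inc_EV (e : Bool) {a b : ℤ} : IncC e (EV e S u y r R a b n) := by
  intro o o' ho h
  exact ⟨inc_FA e _ _ ho h.1, inc_Hc e _ _ _ _ _ _ ho h.2⟩

theorem dep_EV (e : Bool) {a b : ℤ} (hn : 0 ≤ n) :
    H871.Dep (Dm e S u y r R a b n) (EV e S u y r R a b n) := by
  intro o o' ho h
  refine ⟨dep_FA e o o' (fun w hw => ho w (Finset.mem_union_left _ hw)) h.1,
    dep_Hc e _ _ _ _ o o' (fun w hw => ho w (Finset.mem_union_right _ ?_)) h.2⟩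
  rw [mem_rq] at hw ⊢
  omega

/-- the probability of the event of one colour, whatever happens elsewhere -/
theorem ev_ge {Q : ℝ} (hQ : 1 ≤ Q) (hR : RSW Q) (hS : SRSW Q) : ∃ (Λ : ℤ), 4 ≤ Λ ∧ ∀ K : ℕ,
    ∃ (c : ℝ) (n0 : ℤ), 0 < c ∧ 1 ≤ n0 ∧ ∀ (e : Bool) (S : St) (u : ℤ × ℤ → ℤ) (y ρ r n a b : ℤ)
      (ζ : Cfg), n0 ≤ n → TC S n y ρ → PtU S u → 4 * n ≤ r → Λ * r ≤ ρ → a ≤ b → b - a ≤ K * n →
      y - ρ ≤ a - n → b + n ≤ y + ρ → Good ζ → (∀ v, v ∉ S.F → ζ v = S.z v) →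
      c ≤ FK.Pr Q (Dm e S u y r (Λ * r) a b n) ζ (EV e S u y r (Λ * r) a b n) := by
  have hQ0 : 0 < Q := by linarith
  obtain ⟨Λ, c, hΛ, hc, h1⟩ := farc_ge hQ hS
  refine ⟨Λ, hΛ, fun K => ?_⟩
  obtain ⟨c', s0, hc', -, hs0, h2⟩ := rs_fk hQ hR K
  refine ⟨c * c', s0, by positivity, hs0,
    fun e S u y ρ r n a b ζ hn hT hu hr hR hab hK ha hb hg hz => ?_⟩
  have hn1 : 1 ≤ n := hs0.trans hn
  have hrR : r ≤ Λ * r := by nlinarith
  have hA := ag1_of hT hn1 hr hrR hR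
  have hsubF : Dm e S u y r (Λ * r) a b n ⊆ S.F := by
    intro v hv
    rcases Finset.mem_union.1 hv with hv | hv
    · exact CU_fresh hv
    · rw [mem_rq] at hv
      exact hT.fresh v ⟨by omega, by omega, by omega, by omega⟩
  have k1 : c ≤ FK.Pr Q (Dm e S u y r (Λ * r) a b n) ζ (FA e S u y r (Λ * r)) :=
    farc_dom hQ (Finset.subset_union_left) hsubF hg hz fun ζ' hg' hz' =>
      h1 e S y r (Λ * r) u ζ' (by omega) le_rfl hA hu hg' hz'
  have k2 : c' ≤ FK.Pr Q (Dm e S u y r (Λ * r) a b n) ζ (Hc e a b n (2 * n)) := by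
    refine (h2 e a b n (2 * n) _ ζ hg hab (by omega)).1 (by omega) (by
      rw [show 2 * n - n = n by ring]; exact hK) fun v g1 g2 g3 g4 g5 => absurd ?_ g5
    refine Finset.mem_union_right _ ?_
    rw [mem_rq]
    omega
  refine le_trans ?_ (prC_inter hQ hg (inc_FA e) (inc_Hc e a b n (2 * n)))
  exact mul_le_mul k1 k2 hc'.le (Pr_nonneg hQ0 _)

/-! ### no escape -/

/-- The squares off the half box of radius `R0` are revealed: the strand does not escape. -/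
theorem noesc {Q C α : ℝ} (hE : ∀ (S : St) (b r R : ℤ), 1 ≤ r → r ≤ R →
    S.Ok → Gq S b R → (∀ v ∈ HB b R, v ∈ S.D) → (∀ x, b - R ≤ x → x ≤ b + R → (x, (-1 : ℤ)) ∉ S.D) →
    (∀ v ∈ HB b r, v ∈ S.F) → PO S (HB b R) → hdv S.tip ∈ HB b r →
    PQ Q S {ξ | Visit S.D S.e0 S.m (HB b R)ᶜ ξ} ≤ C * ((r : ℝ) / R) ^ α) (h : TC S n y ρ)
    (hn : 1 ≤ n) {R0 : ℤ} (h1 : 4 * n ≤ R0) (h2 : R0 ≤ ρ) {ω : Cfg} (hg : Good ω)
    (hω : ∀ v, v ∉ S.F → ω v = S.z v) :
    FK.Pr Q (S.F ∩ hbF y R0) ω {ξ | Visit S.D S.e0 S.m (HB y R0)ᶜ ξ} ≤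
      C * (((4 * n - 1 : ℤ) : ℝ) / R0) ^ α := by
  have hpath : ∀ i ≤ S.m, H318.st S.e0 ω i = H318.st S.e0 S.z i :=
    Bs.st_congr (n := S.m) fun i hi => hω _ fun hF => (Bs.hit_min hi).1 (Finset.mem_coe.2 hF)
  have htipF : ((y, 4 * n - 1) : ℤ × ℤ) ∈ S.F :=
    h.fresh _ ⟨by dsimp only; omega, by dsimp only; omega, by dsimp only; omega,
      by dsimp only; omega⟩
  have htipW : ((y, 4 * n - 1) : ℤ × ℤ) ∈ S.F ∩ hbF y R0 := by
    rw [Finset.mem_inter, mem_hbF]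
    exact ⟨htipF, by dsimp only; omega, by dsimp only; omega, by dsimp only; omega,
      by dsimp only; omega⟩
  have hm : hit S.D S.e0 ↑(S.F ∩ hbF y R0) ω = S.m := by
    refine Bs.hit_eq_of (Or.inl ?_) fun i hi => ?_
    · rw [hpath _ le_rfl]
      have : hdv (H318.st S.e0 S.z S.m) = (y, 4 * n - 1) := tc_hdv h
      rw [this]
      exact Finset.mem_coe.2 htipW
    · rw [hpath _ hi.le]
      exact ⟨fun hc => (Bs.hit_min hi).1 (Finset.mem_coe.2
        (Finset.mem_inter.1 (Finset.mem_coe.1 hc)).1), (Bs.hit_min hi).2⟩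
  have key := hE ⟨S.D, S.F ∩ hbF y R0, ω, S.e0⟩ y (4 * n - 1) R0 (by omega) (by omega) ?_ ?_ ?_ ?_
    ?_ ?_ ?_
  · have hm' : (⟨S.D, S.F ∩ hbF y R0, ω, S.e0⟩ : St).m = S.m := hm
    rw [hm'] at key
    exact key
  · exact ⟨Finset.inter_subset_left.trans h.sub, h.co, h.toOk.st⟩
  · refine ⟨hg, fun v g1 g2 g3 g4 => ?_, fun a g1 g2 => h.gq.ne a (by omega) (by omega)⟩
    obtain ⟨k1, k2⟩ := h.gq.row v (by omega) (by omega) (by omega) g4
    exact ⟨fun hc => k1 (Finset.mem_inter.1 hc).1, by rw [← k2]; exact hω v k1⟩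
  · rintro v ⟨a1, a2, a3, a4⟩
    exact h.flat'.mem v ⟨by omega, by omega, a3, by omega⟩
  · exact fun a g1 g2 => h.flat'.not a (by omega) (by omega)
  · rintro v ⟨a1, a2, a3, a4⟩
    refine Finset.mem_inter.2 ⟨h.fresh v ⟨by omega, by omega, a3, by omega⟩, ?_⟩
    rw [mem_hbF]
    exact ⟨by omega, by omega, a3, by omega⟩
  · rintro v ⟨a1, a2, a3, a4⟩
    rcases h.po v ⟨by omega, by omega, a3, by omega⟩ with hF | ⟨i, hi, hi'⟩
    · left
      refine Finset.mem_inter.2 ⟨hF, ?_⟩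
      rw [mem_hbF]
      exact ⟨a1, a2, a3, a4⟩
    · right
      refine ⟨i, ?_, ?_⟩
      · rw [show (⟨S.D, S.F ∩ hbF y R0, ω, S.e0⟩ : St).m = S.m from hm]
        exact hi
      · rw [← hi', ← hpath i hi.le]
  · have : hdv (⟨S.D, S.F ∩ hbF y R0, ω, S.e0⟩ : St).tip = (y, 4 * n - 1) := by
      show hdv (H318.st S.e0 ω (⟨S.D, S.F ∩ hbF y R0, ω, S.e0⟩ : St).m) = _
      rw [show (⟨S.D, S.F ∩ hbF y R0, ω, S.e0⟩ : St).m = S.m from hm, hpath _ le_rfl]
      exact tc_hdv h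
    rw [this]
    exact ⟨by dsimp only; omega, by dsimp only; omega, by dsimp only; omega, by dsimp only; omega⟩

/-- a large constant -/
theorem exists_big {C α : ℝ} (hC : 0 < C) (hα : 0 < α) : ∃ K30 : ℤ, 16 ≤ K30 ∧
    ∀ K3 : ℤ, K30 ≤ K3 → C * ((4 : ℝ) / ((K3 : ℝ) - 4)) ^ α ≤ 1 / 2 := by
  set B : ℝ := (2 * C) ^ (1 / α) with hB
  have hB0 : 0 < B := Real.rpow_pos_of_pos (by positivity) _
  refine ⟨max 16 (⌈4 * B⌉ + 5), le_max_left _ _, fun K3 hK => ?_⟩
  have h1 : (⌈4 * B⌉ : ℝ) + 5 ≤ K3 := by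
    have : ⌈4 * B⌉ + 5 ≤ K3 := (le_max_right _ _).trans hK
    exact_mod_cast this
  have h2 : 4 * B ≤ (K3 : ℝ) - 4 := by
    have := Int.le_ceil (4 * B)
    linarith
  have h3 : (0 : ℝ) < (K3 : ℝ) - 4 := by
    have : (0 : ℝ) < 4 * B := by positivity
    linarith
  have h4 : (4 : ℝ) / ((K3 : ℝ) - 4) ≤ B⁻¹ := by
    rw [div_le_iff₀ h3, ← div_eq_inv_mul, le_div_iff₀ hB0]
    exact h2
  have h5 : ((4 : ℝ) / ((K3 : ℝ) - 4)) ^ α ≤ (2 * C)⁻¹ := by
    refine (Real.rpow_le_rpow (by positivity) h4 hα.le).trans (le_of_eq ?_)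
    rw [Real.inv_rpow hB0.le, hB, ← Real.rpow_mul (by positivity), one_div,
      inv_mul_cancel₀ hα.ne', Real.rpow_one]
  calc C * ((4 : ℝ) / ((K3 : ℝ) - 4)) ^ α ≤ C * (2 * C)⁻¹ :=
        mul_le_mul_of_nonneg_left h5 hC.le
    _ = 1 / 2 := by field_simp

/-- **Probability of the tail.** -/
theorem tail {Q : ℝ} (hQ : 1 ≤ Q) (hR : RSW Q) (hS : SRSW Q) (hE : ESCQ Q) : TAIL Q := by
  have hQ0 : 0 < Q := by linarith
  obtain ⟨Λ, hΛ, hev⟩ := ev_ge hQ hR hS
  obtain ⟨C, α, hC, hα, hesc⟩ := hE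
  obtain ⟨K30, hK30, hbig⟩ := exists_big hC hα
  refine ⟨Λ, K30, by omega, hK30, fun K3 K hK3 hK => ?_⟩
  obtain ⟨c, n0, hc, hn0, hev⟩ := hev (2 * K).toNat
  refine ⟨c * c * (1 / 2), n0, by positivity, hn0, fun S x y ρ n hn hxy hρ hT => ?_⟩
  have hn1 : 1 ≤ n := hn0.trans hn
  have hxy' := abs_le.1 hxy
  -- the lengths
  have hk : 16 * n ≤ K3 * n := mul_le_mul_of_nonneg_right (hK30.trans hK3) (by omega)
  obtain ⟨k, hkd⟩ : ∃ k, K3 * n = k := ⟨_, rfl⟩
  obtain ⟨kk, hkkd⟩ : ∃ k, K * n = k := ⟨_, rfl⟩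
  obtain ⟨r1, hr1d⟩ : ∃ k, (K3 + 8) * n = k := ⟨_, rfl⟩
  obtain ⟨L1, hL1d⟩ : ∃ k, Λ * r1 = k := ⟨_, rfl⟩
  obtain ⟨L2, hL2d⟩ : ∃ k, Λ * L1 = k := ⟨_, rfl⟩
  have hr1 : r1 = k + 8 * n := by rw [← hr1d, ← hkd]; ring
  have hL1 : 4 * r1 ≤ L1 := by
    rw [← hL1d]; exact mul_le_mul_of_nonneg_right hΛ (by omega)
  have hL2 : 4 * L1 ≤ L2 := by
    rw [← hL2d]; exact mul_le_mul_of_nonneg_right hΛ (by omega)
  have hkk : 20 * L2 + 20 * n ≤ kk := by
    have h1 := mul_le_mul_of_nonneg_right hK (show (0 : ℤ) ≤ n by omega)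
    have h2 : (20 * K4 Λ K3 + 20) * n = 20 * L2 + 20 * n := by
      rw [← hL2d, ← hL1d, ← hr1d]; unfold K4; ring
    rw [h2, hkkd] at h1
    exact h1
  have h2k : 2 * (K * n) = 2 * kk := by rw [hkkd]
  have h3k : (K3 + 3) * n = k + 3 * n := by rw [← hkd]; ring
  have h4k : (K3 - 4) * n = k - 4 * n := by rw [← hkd]; ring
  rw [hkkd] at hρ
  rw [hkd] at hk
  obtain ⟨u, hu⟩ := (ag1_of hT hn1 le_rfl (show 4 * n ≤ ρ by omega) le_rfl).exists_pt (by omega)
  have hjump := jump hT hn1 (by omega) hu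
  have hj0 : u (ls S.tip) = u (rs S.tip) + 1 := hjump S.m le_rfl
  have hKn : 2 * kk ≤ ((2 * K).toNat : ℤ) * n := by
    have hK0 : 0 ≤ 2 * K := by
      by_contra hcon
      have : K * n < 0 := mul_neg_of_neg_of_pos (by omega) (by omega)
      omega
    rw [Int.toNat_of_nonneg hK0, ← hkkd]
    linarith
  -- the two domains
  set T := Dm true S u y r1 L1 (x + (k + 3 * n)) (x + 2 * kk) n with hTd
  set T' := Dm false S u y L1 L2 (x - 2 * kk) (x - (k + 3 * n)) n with hTd'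
  set B := EV true S u y r1 L1 (x + (k + 3 * n)) (x + 2 * kk) n with hBd
  set B' := EV false S u y L1 L2 (x - 2 * kk) (x - (k + 3 * n)) n with hBd'
  have hTF : ∀ (e : Bool) (r R a b : ℤ), y - ρ ≤ a - n → b + n ≤ y + ρ →
      Dm e S u y r R a b n ⊆ S.F := by
    intro e r R a b ha hb v hv
    rcases Finset.mem_union.1 hv with hv | hv
    · exact CU_fresh hv
    · rw [mem_rq] at hv
      exact hT.fresh v ⟨by omega, by omega, by omega, by omega⟩
  have hdisj : Disjoint T T' := by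
    rw [Finset.disjoint_left]
    intro v hv hv'
    rcases Finset.mem_union.1 hv with hv | hv <;> rcases Finset.mem_union.1 hv' with hv' | hv'
    · exact (Finset.disjoint_left.1 (CU_disj hjump)) hv hv'
    · have h1 : u v = u (ls S.tip) := (mem_CU.1 hv).2.2
      rw [mem_rq] at hv'
      have h2 := west_val hT hn1 (by omega) hu (v := v) (by omega) (by omega) (by omega) (by omega)
      omega
    · have h1 : u v = u (rs S.tip) := (mem_CU.1 hv').2.2
      rw [mem_rq] at hv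
      have h2 := east_val hT hn1 (by omega) hu (v := v) (by omega) (by omega) (by omega) (by omega)
      omega
    · rw [mem_rq] at hv hv'
      omega
  have hg : Good S.z := hT.gq.good
  have hout : ∀ T0, (∀ v, v ∉ S.F → cf S.F S.z T0 v = S.z v) := fun T0 v hv => cf_out hv
  have dB : H871.Dep T B := dep_EV true (by omega)
  have dB' : H871.Dep T' B' := dep_EV false (by omega)
  -- both colours
  have hboth : c * c ≤ FK.Pr Q S.F S.z (B ∩ B') := by
    have i1 : ∀ A : Finset (ℤ × ℤ), Ind A ((Set.univ : Set Cfg).indicator (1 : Cfg → ℝ)) :=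
      fun A ω ω' _ => by rw [Set.indicator_univ]; rfl
    have iu : ∀ e, IncC e (Set.univ : Set Cfg) := fun e o o' _ _ => Set.mem_univ _
    have h1 := ext2 (e := true) (e' := false) (A := Set.univ) (A' := Set.univ) (B := B) (B' := B')
      (G := fun _ => 1) (c := c) (c' := c) hQ hg (T := T) (T' := T')
      (hTF _ _ _ _ _ (by omega) (by omega)) (hTF _ _ _ _ _ (by omega) (by omega))
      (fun _ _ _ => rfl) (fun _ _ _ => rfl) (fun _ => zero_le_one) (iu _) (inc_EV true) (iu _)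
      (inc_EV false) (i1 _) (dep_ind dB hdisj) (i1 _) hc.le
      (fun ω g1 g2 _ => by
        have := hev true S u y ρ r1 n (x + (k + 3 * n)) (x + 2 * kk) ω hn hT hu (by omega)
          (by omega) (by omega) (by omega) (by omega) (by omega) g1 g2
        rw [hL1d] at this
        exact this)
      (fun ω g1 g2 _ => by
        have := hev false S u y ρ L1 n (x - 2 * kk) (x - (k + 3 * n)) ω hn hT hu (by omega)
          (by omega) (by omega) (by omega) (by omega) (by omega) g1 g2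
        rw [hL2d] at this
        exact this)
    rw [show (fun ω : Cfg => (1 : ℝ) * ((Set.univ : Set Cfg) ∩ Set.univ).indicator 1 ω) =
      fun _ => 1 from funext fun ω => by simp, Ex_const hQ0, mul_one] at h1
    refine h1.trans (le_of_eq ?_)
    unfold FK.Pr
    congr 1
    funext ω
    rw [one_mul, Set.univ_inter, Set.univ_inter]
  -- no escape
  set W := S.F ∩ hbF y (k - 4 * n) with hW
  have iW : Ind W ((B ∩ B').indicator (1 : Cfg → ℝ)) := by
    have hdis : ∀ (e : Bool) (r R a b : ℤ), k - 4 * n ≤ r → (y + (k - 4 * n) < a - n ∨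
        b + n < y - (k - 4 * n)) → Disjoint (Dm e S u y r R a b n) W := by
      intro e r R a b hr hab
      rw [Finset.disjoint_left]
      intro v hv hvW
      rw [hW, Finset.mem_inter, mem_hbF] at hvW
      obtain ⟨-, w1, w2, w3, w4⟩ := hvW
      rcases Finset.mem_union.1 hv with hv | hv
      · have h2 := mem_dF.1 (CU_sub hv)
        simp only [dq, Set.mem_ofPred_eq] at h2
        omega
      · rw [mem_rq] at hv
        omega
    have h1 := dep_ind dB (hdis _ _ _ _ _ (by omega) (Or.inl (by omega)))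
    have h2 := dep_ind dB' (hdis _ _ _ _ _ (by omega) (Or.inr (by omega)))
    intro ω ω' hω
    rw [ind_inter, ind_inter]
    exact (h1.mul h2) ω ω' hω
  have hNE : ∀ ω, Good ω → (∀ v, v ∉ S.F → ω v = S.z v) →
      1 / 2 ≤ FK.Pr Q W ω {ξ | ¬ Visit S.D S.e0 S.m (HB y (k - 4 * n))ᶜ ξ} := by
    intro ω g1 g2
    have h1 := noesc hesc hT hn1 (R0 := k - 4 * n) (by omega) (by omega) g1 g2
    have h2 : C * (((4 * n - 1 : ℤ) : ℝ) / ((k - 4 * n : ℤ) : ℝ)) ^ α ≤ 1 / 2 := by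
      refine le_trans ?_ (hbig K3 hK3)
      have hn0 : (0 : ℝ) < n := by exact_mod_cast (show (0 : ℤ) < n by omega)
      have hK34 : (0 : ℝ) < (K3 : ℝ) - 4 := by
        have : (16 : ℝ) ≤ K3 := by exact_mod_cast hK30.trans hK3
        linarith
      have e1 : (((k - 4 * n : ℤ) : ℝ)) = ((K3 : ℝ) - 4) * n := by
        rw [← hkd]; push_cast; ring
      refine mul_le_mul_of_nonneg_left (Real.rpow_le_rpow ?_ ?_ hα.le) hC.le
      · rw [e1]
        have : (0 : ℝ) ≤ ((4 * n - 1 : ℤ) : ℝ) := by exact_mod_cast (by omega : (0 : ℤ) ≤ 4 * n - 1)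
        positivity
      · rw [e1, div_le_div_iff₀ (by positivity) hK34]
        push_cast
        nlinarith
    have h3 : {ξ | ¬ Visit S.D S.e0 S.m (HB y (k - 4 * n))ᶜ ξ} =
        {ξ | Visit S.D S.e0 S.m (HB y (k - 4 * n))ᶜ ξ}ᶜ := rfl
    rw [h3, Pr_compl hQ0]
    have h4 := h1.trans h2
    linarith
  have hlast : c * c * (1 / 2) ≤ Ex Q S.F S.z (fun ω => (B ∩ B').indicator 1 ω *
      {ξ | ¬ Visit S.D S.e0 S.m (HB y (k - 4 * n))ᶜ ξ}.indicator 1 ω) := by
    rw [markov f_markov hQ0 Finset.inter_subset_left hg iW]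
    have h5 : Ex Q S.F S.z (fun ω => (1 / 2) * (B ∩ B').indicator (1 : Cfg → ℝ) ω) ≤
        Ex Q S.F S.z (fun ω => (B ∩ B').indicator (1 : Cfg → ℝ) ω *
          Ex Q W ω ({ξ | ¬ Visit S.D S.e0 S.m (HB y (k - 4 * n))ᶜ ξ}.indicator 1)) :=
      Ex_mono hQ0 fun T0 _ => by
        rw [mul_comm]
        exact mul_le_mul_of_nonneg_left (hNE _ (f_good.1 _ _ _ hg) (hout T0)) (ind_nonneg _ _)
    refine le_trans ?_ h5
    rw [Ex_mul_left, mul_comm]
    exact mul_le_mul_of_nonneg_left hboth (by norm_num)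
  refine hlast.trans (Ex_mono hQ0 fun T0 _ => ?_)
  by_cases h1 : cf S.F S.z T0 ∈ B ∩ B'
  · by_cases h2 : cf S.F S.z T0 ∈ {ξ | ¬ Visit S.D S.e0 S.m (HB y (k - 4 * n))ᶜ ξ}
    · have h3 : cf S.F S.z T0 ∈ {ξ | TL S K3 K Λ x y n ξ} := by
        refine ⟨?_, ?_, ?_, ?_, ?_⟩
        · rw [hr1d, hL1d]
          exact arc_trueW (ag1_of hT hn1 (by omega) (by omega) (by omega)) (by omega) (by omega) hu
            h1.1.1
        · rw [hr1d, hL1d, hL2d]
          exact arc_falseW (ag1_of hT hn1 (by omega) (by omega) (by omega)) (by omega) (by omega) hu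
            h1.2.1
        · rw [h3k, h2k]
          exact h1.1.2
        · rw [h3k, h2k]
          exact h1.2.2
        · rw [h4k]
          exact h2
      rw [Set.indicator_of_mem h1, Set.indicator_of_mem h2, Set.indicator_of_mem h3]
      simp
    · rw [Set.indicator_of_notMem h2, mul_zero]
      exact ind_nonneg _ _
  · rw [Set.indicator_of_notMem h1, zero_mul]
    exact ind_nonneg _ _

end Vale.Agent.P167.H166Q
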